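import Vale.Agent.P038.LeadS.Defs

/-! L7 of the plan of note 23131: (CHEB) together with (G) is contradictory. -/

namespace Vale.Agent.P038.H239S

open Finset Vale.Agent.P038.LeadS

variable {V : Type*} [Fintype V] [DecidableEq V]

theorem mem_N {R : V → V → Prop} {X : Finset V} {z : V} : z ∈ N R X ↔ ∃ x ∈ X, R x z := by
  simp [N]

theorem mem_E {R : V → V → Prop} {X : Finset (V × V)} {a b : V} :
    (a, b) ∈ E R X ↔ ∃ t, R t b ∧ (a, t) ∈ X := by
  simp [E]

theorem mem_Js {R : V → V → Prop} {X : Finset (V × V)} {a b : V} :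
    (a, b) ∈ Js R X ↔ ∀ z, R z a → (z, b) ∈ X := by
  simp [Js]

/-- row of a relation -/
def row (X : Finset (V × V)) (a : V) : Finset V := univ.filter fun b => (a, b) ∈ X

/-- column of a relation -/
def col (X : Finset (V × V)) (b : V) : Finset V := univ.filter fun a => (a, b) ∈ X

theorem mem_row {X : Finset (V × V)} {a b : V} : b ∈ row X a ↔ (a, b) ∈ X := by simp [row]

theorem mem_col {X : Finset (V × V)} {a b : V} : a ∈ col X b ↔ (a, b) ∈ X := by simp [col]

theorem mu_row (p w : V → ℝ) (X : Finset (V × V)) :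
    mu p w X = ∑ a, p a * W w (row X a) := by
  unfold mu W row
  have h1 : ∑ q ∈ X, p q.1 * w q.2 = ∑ q : V × V, if q ∈ X then p q.1 * w q.2 else 0 := by
    rw [Finset.sum_ite_mem, Finset.univ_inter]
  rw [h1, Fintype.sum_prod_type]
  refine Finset.sum_congr rfl fun a _ => ?_
  rw [Finset.sum_filter, Finset.mul_sum]
  refine Finset.sum_congr rfl fun b _ => ?_
  split_ifs <;> simp

theorem mu_col (p w : V → ℝ) (X : Finset (V × V)) :
    mu p w X = ∑ b, w b * W p (col X b) := by
  unfold mu W col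
  have h1 : ∑ q ∈ X, p q.1 * w q.2 = ∑ q : V × V, if q ∈ X then p q.1 * w q.2 else 0 := by
    rw [Finset.sum_ite_mem, Finset.univ_inter]
  rw [h1, Fintype.sum_prod_type_right]
  refine Finset.sum_congr rfl fun b _ => ?_
  rw [Finset.sum_filter, Finset.mul_sum]
  refine Finset.sum_congr rfl fun a _ => ?_
  split_ifs
  · ring
  · simp

theorem W_mono {w : V → ℝ} (hw : ∀ a, 0 < w a) {S T : Finset V} (h : S ⊆ T) : W w S ≤ W w T :=
  Finset.sum_le_sum_of_subset_of_nonneg h fun i _ _ => (hw i).le

theorem W_insert_compl (w : V → ℝ) {S : Finset V} {b : V} (hb : b ∈ S) :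
    W w (insert b (univ \ S)) = W w univ - W w S + w b := by
  unfold W
  rw [Finset.sum_insert (by simp [hb])]
  have := Finset.sum_sdiff (Finset.subset_univ S) (f := w)
  linarith

theorem W_sdiff (w : V → ℝ) {S T : Finset V} (h : S ⊆ T) : W w (T \ S) = W w T - W w S := by
  unfold W
  have := Finset.sum_sdiff h (f := w)
  linarith

theorem subset_N {R : V → V → Prop} (hR : ∀ a, R a a) (X : Finset V) : X ⊆ N R X :=
  fun x hx => mem_N.2 ⟨x, hx, hR x⟩

theorem row_E (R : V → V → Prop) (X : Finset (V × V)) (a : V) : row (E R X) a = N R (row X a) := by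
  ext b
  rw [mem_row, mem_E, mem_N]
  constructor
  · rintro ⟨t, h1, h2⟩
    exact ⟨t, mem_row.2 h2, h1⟩
  · rintro ⟨t, h1, h2⟩
    exact ⟨t, h2, mem_row.1 h1⟩

/-- feasible pairs of the outer problem -/
def Feas (R : V → V → Prop) (q : Finset (V × V) × Finset (V × V)) : Prop :=
  (∀ a b, R a b → (a, b) ∈ q.1) ∧ q.1 ⊆ q.2 ∧ ∀ a b, (a, b) ∈ q.2 → R b a → a = b

/-- cost of the outer problem -/
noncomputable def cost (R : V → V → Prop) (w : V → ℝ) (q : Finset (V × V) × Finset (V × V)) : ℝ :=
  mu w w (E R q.1) - mu w w q.1 + (mu w w q.2 - mu w w (Js R q.2))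

open Classical in
/-- L7: (CHEB) for `p = w` and (G) are contradictory. -/
theorem no_G_of_cheb [Nonempty V] (R : V → V → Prop) (hR : ∀ a, R a a)
    (hor : ∀ a b, R a b → R b a → a = b)
    (w : V → ℝ) (hw : ∀ a, 0 < w a)
    (hcheb : ∀ (B U : Finset (V × V)), B ⊆ U →
      (∀ B', B ⊆ B' → B' ⊆ U → mu w w (E R B) - mu w w B ≤ mu w w (E R B') - mu w w B') →
      (∀ U', B ⊆ U' → U' ⊆ U → mu w w U - mu w w (Js R U) ≤ mu w w U' - mu w w (Js R U')) →
      mu w w (E R U) - mu w w (E R B) + (mu w w (Js R U) - mu w w (Js R B)) ≤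
        mu w w U - mu w w B + (mu w w (E R (Js R U)) - mu w w (E R (Js R B))))
    (hG : ∀ (a : V) (X : Finset V), a ∈ X → (∀ z, R z a → z ≠ a → z ∉ N R X) →
      W w (N R (N R X) \ N R X) < W w (N R X \ X)) : False := by
  -- a minimiser of the outer problem
  have hne : ((univ : Finset (Finset (V × V) × Finset (V × V))).filter (Feas R)).Nonempty := by
    refine ⟨(univ.filter fun q : V × V => R q.1 q.2, univ.filter fun q : V × V => R q.1 q.2), ?_⟩
    rw [Finset.mem_filter]
    refine ⟨Finset.mem_univ _, ?_, ?_, ?_⟩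
    · intro a b h
      simp [h]
    · exact Finset.Subset.refl _
    · intro a b h1 h2
      simp at h1
      exact hor a b h1 h2
  obtain ⟨⟨B, U⟩, hmem, hmin⟩ := Finset.exists_min_image _ (cost R w) hne
  rw [Finset.mem_filter] at hmem
  obtain ⟨-, hAB, hBU, hUA⟩ := hmem
  dsimp only at hAB hBU hUA
  have hmin' : ∀ B' U' : Finset (V × V), Feas R (B', U') → cost R w (B, U) ≤ cost R w (B', U') :=
    fun B' U' h => hmin (B', U') (Finset.mem_filter.2 ⟨Finset.mem_univ _, h⟩)
  have hch := hcheb B U hBU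
    (by
      intro B' h1 h2
      have := hmin' B' U ⟨fun a b h => h1 (hAB a b h), h2, hUA⟩
      unfold cost at this
      dsimp only at this
      linarith)
    (by
      intro U' h1 h2
      have := hmin' B U' ⟨hAB, h1, fun a b h => hUA a b (h2 h)⟩
      unfold cost at this
      dsimp only at this
      linarith)
  -- the shifted pair
  set P := Js R B with hP
  set Q := E R (Js R U) with hQ
  have hAU : ∀ a b, R a b → (a, b) ∈ U := fun a b h => hBU (hAB a b h)
  have hPsub : ∀ a t, (a, t) ∈ P → (a, t) ∈ Js R U := by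
    intro a t h
    rw [hP, mem_Js] at h
    exact mem_Js.2 fun z hz => hBU (h z hz)
  have hPdiag : ∀ a, (a, a) ∈ P := fun a => mem_Js.2 fun z hz => hAB z a hz
  let X : V → Finset V := fun a => row P a
  let Y : V → Finset V := fun b => univ.filter fun x => ∀ y, R x y → y = b ∨ (y, b) ∉ Q
  have hYmem : ∀ b x, x ∈ Y b ↔ ∀ y, R x y → y = b ∨ (y, b) ∉ Q := by
    intro b x
    simp [Y]
  have hXa : ∀ a, a ∈ X a := fun a => mem_row.2 (hPdiag a)
  have hYb : ∀ b, b ∈ Y b := by
    intro b
    rw [hYmem]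
    intro y hy
    by_contra hcon
    push Not at hcon
    obtain ⟨hyb, hyQ⟩ := hcon
    rw [hQ, mem_E] at hyQ
    obtain ⟨t, htb, hyt⟩ := hyQ
    rw [mem_Js] at hyt
    have h1 := hyt b hy
    have h2 := hUA b t h1 htb
    subst h2
    exact hyb (hUA y b (hyt y (hR y)) hy)
  let B' : Finset (V × V) := E R P
  let U' : Finset (V × V) := univ.filter fun q : V × V => q.1 = q.2 ∨ q.1 ∉ N R (Y q.2)
  have hU'mem : ∀ a b, (a, b) ∈ U' ↔ (a = b ∨ a ∉ N R (Y b)) := by
    intro a b
    simp [U']
  have hfeas : Feas R (B', U') := by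
    refine ⟨?_, ?_, ?_⟩
    · intro a b h
      exact mem_E.2 ⟨a, h, hPdiag a⟩
    · rintro ⟨a, b⟩ h
      change (a, b) ∈ E R P at h
      rw [mem_E] at h
      obtain ⟨t, ht, hat⟩ := h
      change (a, b) ∈ U'
      rw [hU'mem]
      by_contra hcon
      push Not at hcon
      obtain ⟨hab, haN⟩ := hcon
      rw [mem_N] at haN
      obtain ⟨x, hx, hxa⟩ := haN
      rw [hYmem] at hx
      rcases hx a hxa with h | h
      · exact hab h
      · exact h (mem_E.2 ⟨t, ht, hPsub a t hat⟩)
    · intro a b h hba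
      change (a, b) ∈ U' at h
      rw [hU'mem] at h
      rcases h with h | h
      · exact h
      · exact absurd (mem_N.2 ⟨b, hYb b, hba⟩) h
  obtain ⟨hAB', hBU', hUA'⟩ := hfeas
  dsimp only at hAB' hBU' hUA'
  -- (G) applies to every `X a` and every `Y b`
  have hGX : ∀ a, W w (N R (N R (X a)) \ N R (X a)) < W w (N R (X a) \ X a) := by
    intro a
    refine hG a (X a) (hXa a) ?_
    intro z hz hza hzN
    have h1 : (a, z) ∈ B' := by
      rw [mem_N] at hzN
      obtain ⟨x, hx, hxz⟩ := hzN
      exact mem_E.2 ⟨x, hxz, mem_row.1 hx⟩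
    exact hza (hUA' a z (hBU' h1) hz).symm
  have hYN : ∀ b z, R z b → z = b ∨ z ∉ N R (Y b) := by
    intro b z hz
    exact (hU'mem z b).1 (hBU' (hAB' z b hz))
  have hGY : ∀ b, W w (N R (N R (Y b)) \ N R (Y b)) < W w (N R (Y b) \ Y b) := by
    intro b
    refine hG b (Y b) (hYb b) ?_
    intro z hz hzb
    rcases hYN b z hz with h | h
    · exact absurd h hzb
    · exact h
  -- cost of the rows
  have hc1 : mu w w (E R B') - mu w w B' =
      ∑ a, w a * W w (N R (N R (X a)) \ N R (X a)) := by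
    rw [mu_row, mu_row, ← Finset.sum_sub_distrib]
    refine Finset.sum_congr rfl fun a _ => ?_
    rw [W_sdiff w (subset_N hR _)]
    have e1 : row B' a = N R (X a) := row_E R P a
    have e2 : row (E R B') a = N R (N R (X a)) := by rw [row_E, e1]
    rw [e1, e2]
    ring
  have hc2 : mu w w (E R P) - mu w w P = ∑ a, w a * W w (N R (X a) \ X a) := by
    rw [mu_row, mu_row, ← Finset.sum_sub_distrib]
    refine Finset.sum_congr rfl fun a _ => ?_
    rw [W_sdiff w (subset_N hR _)]
    have e1 : row (E R P) a = N R (X a) := row_E R P a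
    rw [e1]
    ring
  -- cost of the columns
  have hc3 : mu w w U' - mu w w (Js R U') =
      ∑ b, w b * W w (N R (N R (Y b)) \ N R (Y b)) := by
    rw [mu_col, mu_col, ← Finset.sum_sub_distrib]
    refine Finset.sum_congr rfl fun b _ => ?_
    rw [W_sdiff w (subset_N hR _)]
    have hbN : b ∈ N R (Y b) := subset_N hR _ (hYb b)
    have hbNN : b ∈ N R (N R (Y b)) := subset_N hR _ hbN
    have e1 : col U' b = insert b (univ \ N R (Y b)) := by
      ext a
      rw [mem_col, hU'mem]
      simp
    have e2 : col (Js R U') b = insert b (univ \ N R (N R (Y b))) := by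
      ext a
      rw [mem_col, mem_Js]
      simp only [Finset.mem_insert, Finset.mem_sdiff, Finset.mem_univ, true_and]
      constructor
      · intro h
        by_contra hcon
        push Not at hcon
        obtain ⟨hab, haN⟩ := hcon
        rw [mem_N] at haN
        obtain ⟨z, hz, hza⟩ := haN
        rcases (hU'mem z b).1 (h z hza) with h1 | h1
        · subst h1
          rcases (hU'mem a z).1 (h a (hR a)) with h2 | h2
          · exact hab h2
          · exact h2 (mem_N.2 ⟨z, hYb z, hza⟩)
        · exact h1 hz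
      · intro h z hz
        rw [hU'mem]
        rcases h with h | h
        · subst h
          exact hYN a z hz
        · right
          intro hzN
          exact h (mem_N.2 ⟨z, hzN, hz⟩)
    rw [e1, e2, W_insert_compl w hbN, W_insert_compl w hbNN]
    ring
  have hc4 : ∑ b, w b * W w (N R (Y b) \ Y b) ≤ mu w w (E R U) - mu w w Q := by
    rw [mu_col, mu_col, ← Finset.sum_sub_distrib]
    refine Finset.sum_le_sum fun b _ => ?_
    rw [W_sdiff w (subset_N hR _), ← mul_sub]
    refine mul_le_mul_of_nonneg_left ?_ (hw b).le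
    have hbQ : b ∈ col Q b := by
      rw [mem_col, hQ, mem_E]
      exact ⟨b, hR b, mem_Js.2 fun z hz => hAU z b hz⟩
    have hbEU : b ∈ col (E R U) b := by
      rw [mem_col, mem_E]
      exact ⟨b, hR b, hAU b b (hR b)⟩
    have h1 : N R (Y b) ⊆ insert b (univ \ col Q b) := by
      intro y hy
      rw [mem_N] at hy
      obtain ⟨x, hx, hxy⟩ := hy
      rw [hYmem] at hx
      rw [Finset.mem_insert, Finset.mem_sdiff, mem_col]
      rcases hx y hxy with h | h
      · exact Or.inl h
      · exact Or.inr ⟨Finset.mem_univ _, h⟩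
    have h2 : insert b (univ \ col (E R U) b) ⊆ Y b := by
      intro x hx
      rw [Finset.mem_insert, Finset.mem_sdiff, mem_col] at hx
      rcases hx with hx | ⟨-, hx⟩
      · rw [hx]
        exact hYb b
      · rw [hYmem]
        intro y hxy
        by_contra hcon
        push Not at hcon
        obtain ⟨-, hyQ⟩ := hcon
        rw [hQ, mem_E] at hyQ
        obtain ⟨t, htb, hyt⟩ := hyQ
        exact hx (mem_E.2 ⟨t, htb, (mem_Js.1 hyt) x hxy⟩)
    have h3 := W_mono hw h1
    have h4 := W_mono hw h2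
    rw [W_insert_compl w hbQ] at h3
    rw [W_insert_compl w hbEU] at h4
    linarith
  -- strictness
  have hs1 : ∑ a, w a * W w (N R (N R (X a)) \ N R (X a)) < ∑ a, w a * W w (N R (X a) \ X a) :=
    Finset.sum_lt_sum_of_nonempty Finset.univ_nonempty
      fun a _ => mul_lt_mul_of_pos_left (hGX a) (hw a)
  have hs2 : ∑ b, w b * W w (N R (N R (Y b)) \ N R (Y b)) < ∑ b, w b * W w (N R (Y b) \ Y b) :=
    Finset.sum_lt_sum_of_nonempty Finset.univ_nonempty
      fun b _ => mul_lt_mul_of_pos_left (hGY b) (hw b)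
  have hfin := hmin' B' U' ⟨hAB', hBU', hUA'⟩
  unfold cost at hfin
  dsimp only at hfin
  rw [hc1, hc3] at hfin
  linarith

end Vale.Agent.P038.H239S
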